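import Vale.Agent.P117.K.Final2
import Vale.Agent.P127.U.Lam.Final

open MeasureTheory Complex Set
open scoped ENNReal NNReal FourierTransform SchwartzMap

namespace Vale.Agent.Results.P117.BandNearTwo

/-- three-dimensional euclidean space -/
abbrev R3 := EuclideanSpace ℝ (Fin 3)

/-- the function belongs to the Schwartz space of three variables -/
def IsSchwartz (f : R3 → ℂ) : Prop := ∃ g : 𝓢(R3, ℂ), (g : R3 → ℂ) = f

/-- the norm of the Lebesgue space of exponent p -/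
noncomputable def lpNorm (p : ℝ≥0∞) (f : R3 → ℂ) : ℝ≥0∞ := eLpNorm f p volume

/-- the Bochner-Riesz operator of order delta -/
noncomputable def bochnerRiesz (δ : ℝ) (f : R3 → ℂ) (x : R3) : ℂ :=
  ∫ ξ : R3, (if ‖ξ‖ < 1 then (((1 - ‖ξ‖ ^ 2) ^ δ : ℝ) : ℂ) else 0) * 𝓕 f ξ *
    cexp (2 * Real.pi * I * (inner ℝ x ξ : ℝ))

/-- The Bochner-Riesz conjecture in three dimensions for `2/5 ≤ 1/p ≤ 3/5`. -/
theorem result (p : ℝ≥0∞) (δ : ℝ) (hp : |(1 / p).toReal - 1 / 2| ≤ 1 / 10) (hδ : 0 < δ) :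
    ∃ C : ℝ≥0, ∀ f : R3 → ℂ, IsSchwartz f → lpNorm p (bochnerRiesz δ f) ≤ C * lpNorm p f := by
  obtain ⟨C, hC⟩ := Vale.Agent.P117.K.br_of_JF2 Vale.Agent.P127.U.Final.jf2 p δ hp hδ
  refine ⟨C, ?_⟩
  rintro f ⟨g, rfl⟩
  exact hC g

end Vale.Agent.Results.P117.BandNearTwo
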